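import Vale.Agent.P270.H766.GB.Iface
import Vale.Agent.P285.H716.AB.Fin
import Vale.Agent.P285.H591.TM.Cv

/-!
# P270 on projective bundles: row G1, sum of two data of the null space theorem
-/

open scoped Manifold ContDiff Topology ComplexConjugate ComplexOrder Matrix
open Filter Set
open Vale.Agent.P272.K Vale.Agent.P285.H281 Vale.Agent.P284.H248 Vale.Agent.P285.TM
open Vale.Agent.P285.H281.M
open Vale.Agent.P272.K.AMP (hess)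

set_option linter.all false

noncomputable section

namespace Vale.Agent.P270.H455.GB

open Vale.Agent.P270.H766.GB
open Vale.Agent.P285.H591.TM (cv_eq pb_add pb_smul pb_congr)
open Vale.Agent.P285.H716.AB (wt_mul wt_pow hess_mul_const hess_add')

/-! ### null spaces -/

section ker
variable {k : ℕ} {H H₁ H₂ : Matrix (Fin k) (Fin k) ℂ}

lemma mem_ker0 {v : Vk k} : v ∈ ker0 H ↔ (fun i => v i) ᵥ* H = 0 := Iff.rfl

lemma vecMul_iff (hH : H.IsHermitian) (v : Fin k → ℂ) : v ᵥ* H = 0 ↔ H *ᵥ star v = 0 := by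
  have h1 : star (v ᵥ* H) = H *ᵥ star v := by
    rw [Matrix.star_vecMul, hH.eq]
  rw [← h1, star_eq_zero]

lemma real_smul_psd (hH : H.PosSemidef) (b : ℕ) : ((b : ℂ) • H).PosSemidef := by
  have h1 : (b : ℂ) • H = ((b : ℝ) : ℂ) • H := by push_cast; rfl
  rw [h1]
  exact posSemidef_ofReal_smul hH (Nat.cast_nonneg b)

lemma ker0_smul {b : ℕ} (hb : 1 ≤ b) : ker0 ((b : ℂ) • H) ≤ ker0 H := by
  intro v hv
  rw [mem_ker0] at hv ⊢
  rw [Matrix.vecMul_smul] at hv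
  have hb0 : (b : ℂ) ≠ 0 := Nat.cast_ne_zero.2 (by omega)
  exact (smul_eq_zero.1 hv).resolve_left hb0

lemma ker0_add_left (h1 : H₁.PosSemidef) (h2 : H₂.PosSemidef) : ker0 (H₁ + H₂) ≤ ker0 H₁ := by
  intro v hv
  rw [mem_ker0] at hv ⊢
  set x : Fin k → ℂ := fun i => v i with hx
  rw [vecMul_iff (h1.isHermitian.add h2.isHermitian)] at hv
  rw [vecMul_iff h1.isHermitian]
  have h3 : star (star x) ⬝ᵥ (H₁ *ᵥ star x) + star (star x) ⬝ᵥ (H₂ *ᵥ star x) = 0 := by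
    rw [← dotProduct_add, ← Matrix.add_mulVec, hv, dotProduct_zero]
  have h4 := h1.dotProduct_mulVec_nonneg (star x)
  have h5 := h2.dotProduct_mulVec_nonneg (star x)
  have h6 : star (star x) ⬝ᵥ (H₁ *ᵥ star x) = 0 := by
    refine le_antisymm ?_ h4
    rw [← h3]
    exact le_add_of_nonneg_right h5
  exact (h1.dotProduct_mulVec_zero_iff (star x)).1 h6

lemma ker0_add_right (h1 : H₁.PosSemidef) (h2 : H₂.PosSemidef) : ker0 (H₁ + H₂) ≤ ker0 H₂ := by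
  rw [add_comm]
  exact ker0_add_left h2 h1

end ker

section
variable {n : ℕ} {X : Type} [TopologicalSpace X] [ChartedSpace (Cm n) X]
  {L₁ L₂ : LineBundle n X} {ψ₁ : L₁.ι → X → ℝ} {ψ₂ : L₂.ι → X → ℝ} {e : Chart n X} {x : X}

lemma wt2 (h1 : Wt L₁ ψ₁) (h2 : Wt L₂ ψ₂) (b₁ b₂ : ℕ) :
    Wt (lb2 L₁ L₂ b₁ b₂) (psi2 ψ₁ ψ₂ b₁ b₂) :=
  wt_mul (wt_pow h1 b₁) (wt_pow h2 b₂)

/-- the curvature of the product -/
lemma cv2 (h1 : Wt L₁ ψ₁) (h2 : Wt L₂ ψ₂) (b₁ b₂ : ℕ) (he : At e x) :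
    cv (lb2 L₁ L₂ b₁ b₂) (psi2 ψ₁ ψ₂ b₁ b₂) e (e x) =
      (b₁ : ℂ) • cv L₁ ψ₁ e (e x) + (b₂ : ℂ) • cv L₂ ψ₂ e (e x) := by
  have hi := mem_idx L₁ x
  have hj := mem_idx L₂ x
  have h3 : x ∈ (lb2 L₁ L₂ b₁ b₂).U (idx L₁ x, idx L₂ x) := ⟨hi, hj⟩
  rw [cv_eq (wt2 h1 h2 b₁ b₂) he h3, cv_eq h1 he hi, cv_eq h2 he hj]
  have s1 := h1.smooth (idx L₁ x) e x he hi
  have s2 := h2.smooth (idx L₂ x) e x he hj
  have h4 : hess (fun y => (b₁ : ℝ) * ψ₁ (idx L₁ x) y + (b₂ : ℝ) * ψ₂ (idx L₂ x) y) e (e x) =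
      hess (fun y => (b₁ : ℝ) * ψ₁ (idx L₁ x) y) e (e x) +
        hess (fun y => (b₂ : ℝ) * ψ₂ (idx L₂ x) y) e (e x) :=
    hess_add' (e := e) (x := x) (f := fun y => (b₁ : ℝ) * ψ₁ (idx L₁ x) y)
      (g := fun y => (b₂ : ℝ) * ψ₂ (idx L₂ x) y)
      (contDiffAt_const.mul s1) (contDiffAt_const.mul s2)
  show hess (fun y => (b₁ : ℝ) * ψ₁ (idx L₁ x) y + (b₂ : ℝ) * ψ₂ (idx L₂ x) y) e (e x) = _
  rw [h4, hess_mul_const _ s1, hess_mul_const _ s2]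
  push_cast
  rfl

end

/-- **G1** -/
theorem g1 : G1 := by
  intro n k ν σ Y _ _ _ _ _ Γ _ D X _ _ _ _ _ _ χ hχ M L₁ L₂ ψ₁ ψ₂ H₁ H₂ d₁ d₂ b₁ b₂ hb₁ hb₂
  have p1 := real_smul_psd d₁.psd b₁
  have p2 := real_smul_psd d₂.psd b₂
  have k1 : ker0 ((b₁ : ℂ) • H₁ + (b₂ : ℂ) • H₂) ≤ ker0 H₁ :=
    (ker0_add_left p1 p2).trans (ker0_smul hb₁)
  have k2 : ker0 ((b₁ : ℂ) • H₁ + (b₂ : ℂ) • H₂) ≤ ker0 H₂ :=
    (ker0_add_right p1 p2).trans (ker0_smul hb₂)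
  have hpb : ∀ (c : Chart ν Y) (u : Cm n), M.pb (cv (lb2 L₁ L₂ b₁ b₂) (psi2 ψ₁ ψ₂ b₁ b₂)) c u =
      (b₁ : ℂ) • M.pb (cv L₁ ψ₁) c u + (b₂ : ℂ) • M.pb (cv L₂ ψ₂) c u := by
    intro c u
    rw [pb_congr M (b' := fun e z => (fun e z => (b₁ : ℂ) • cv L₁ ψ₁ e z) e z +
      (fun e z => (b₂ : ℂ) • cv L₂ ψ₂ e z) e z)
      (fun e x he => cv2 d₁.wt d₂.wt b₁ b₂ he) c u, pb_add, pb_smul, pb_smul]
  refine ⟨⟨wt2 d₁.wt d₂.wt b₁ b₂, ?_, ?_, p1.add p2, ?_, ?_⟩, k1, k2⟩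
  · intro c hc u u' hu huu
    rw [hpb, hpb, d₁.inv c hc u u' hu huu, d₂.inv c hc u u' hu huu]
  · intro c hc u hu i j
    rw [hpb, Matrix.add_apply, Matrix.smul_apply, Matrix.smul_apply, d₁.blk c hc u hu i j,
      d₂.blk c hc u hu i j]
    rfl
  · intro c hc u hu v hv
    rw [hpb, Matrix.vecMul_add, Matrix.vecMul_smul, Matrix.vecMul_smul,
      d₁.kill c hc u hu v (k1 hv), d₂.kill c hc u hu v (k2 hv)]
    simp
  · intro δ hδ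
    have hs : (0 : ℝ) < (b₁ : ℝ) + b₂ := by
      have : (1 : ℝ) ≤ b₁ := by exact_mod_cast hb₁
      have : (0 : ℝ) ≤ b₂ := Nat.cast_nonneg _
      linarith
    obtain ⟨g₁, g₁s, g₁i, g₁p⟩ := d₁.apx (δ / (b₁ + b₂)) (div_pos hδ hs)
    obtain ⟨g₂, g₂s, g₂i, g₂p⟩ := d₂.apx (δ / (b₁ + b₂)) (div_pos hδ hs)
    refine ⟨fun x => (b₁ : ℝ) * g₁ x + (b₂ : ℝ) * g₂ x, ?_, ?_, ?_⟩
    · intro e x he
      exact (contDiffAt_const.mul (g₁s e x he)).add (contDiffAt_const.mul (g₂s e x he))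
    · intro z z' y
      show (b₁ : ℝ) * g₁ _ + (b₂ : ℝ) * g₂ _ = _
      rw [g₁i z z' y, g₂i z z' y]
    · intro e x he
      have h1 := real_smul_psd (g₁p e x he) b₁
      have h2 := real_smul_psd (g₂p e x he) b₂
      have h3 : hess (fun x => (b₁ : ℝ) * g₁ x + (b₂ : ℝ) * g₂ x) e (e x) =
          (b₁ : ℂ) • hess g₁ e (e x) + (b₂ : ℂ) • hess g₂ e (e x) := by
        rw [hess_add' (e := e) (x := x) (f := fun x => (b₁ : ℝ) * g₁ x)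
          (g := fun x => (b₂ : ℝ) * g₂ x) (contDiffAt_const.mul (g₁s e x he))
          (contDiffAt_const.mul (g₂s e x he)),
          hess_mul_const _ (g₁s e x he), hess_mul_const _ (g₂s e x he)]
        push_cast
        rfl
      have h4 := h1.add h2
      convert h4 using 1
      rw [cv2 d₁.wt d₂.wt b₁ b₂ he, h3]
      have h5 : (δ : ℂ) = (b₁ : ℂ) * ((δ / (b₁ + b₂) : ℝ) : ℂ) +
          (b₂ : ℂ) * ((δ / (b₁ + b₂) : ℝ) : ℂ) := by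
        rw [← add_mul]
        have : ((b₁ : ℂ) + b₂) = (((b₁ : ℝ) + b₂ : ℝ) : ℂ) := by push_cast; rfl
        rw [this, ← Complex.ofReal_mul, mul_div_cancel₀ _ hs.ne']
      conv_lhs => rw [h5]
      simp only [smul_add, add_smul, mul_smul]
      abel

end Vale.Agent.P270.H455.GB
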