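import Vale.Agent.P270.H766.GB.Iface
import Vale.Agent.P285.H716.AB.Fin
import Vale.Agent.P272.K.AMP.Main.Step0

/-!
# P270 on projective bundles: row G3, `Psi` is a metric of `K^a ⊗ L^b`
-/

open scoped Manifold ContDiff Topology ComplexConjugate ComplexOrder Matrix
open Filter Set
open Vale.Agent.P272.K Vale.Agent.P285.H281 Vale.Agent.P284.H248 Vale.Agent.P285.TM
open Vale.Agent.P285.H281.M
open Vale.Agent.P272.K.AMP (hess)

noncomputable section

namespace Vale.Agent.P270.H455.GB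

open Vale.Agent.P270.H766.GB

/-- a metric of the canonical bundle gives weights of `can` -/
theorem wt_can {n : ℕ} {X : Type} [TopologicalSpace X] [ChartedSpace (Cm n) X]
    [IsManifold 𝓘(ℂ, Cm n) ω X] {φ : Chart n X → Cm n → ℝ} (hφ : IsCanonicalMetric φ) :
    Wt (can n X) (fun (i : (can n X).ι) x => φ i.1 (i.1 x)) where
  smooth i e x he hi := by
    have hi' : At i.1 x := ⟨i.2, hi⟩
    have h1 : ContDiffAt ℂ ω (fun z => i.1 (e.symm z)) (e x) := transition he hi'
    have h2 : ContDiffAt ℝ ∞ (fun z => i.1 (e.symm z)) (e x) :=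
      (h1.restrict_scalars ℝ).of_le (by exact le_top)
    have h3 : ContDiffAt ℝ ∞ (φ i.1) (i.1 (e.symm (e x))) := by
      rw [he.left_inv]
      exact hφ.smooth i.1 x hi'
    exact ContDiffAt.comp (e x) (g := φ i.1) (f := fun z => i.1 (e.symm z)) h3 h2
  change i j x hi hj := hφ.change i.1 j.1 x ⟨i.2, hi⟩ ⟨j.2, hj⟩

/-- **G3** -/
theorem g3 : G3 := by
  intro n X _ _ _ χ hχ L ψ hψ a b
  exact Vale.Agent.P285.H716.AB.wt_mul
    (Vale.Agent.P285.H716.AB.wt_pow
      (wt_can (AMP.Main.isCanonical_logdet hχ.toIsHermitian)) a)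
    (Vale.Agent.P285.H716.AB.wt_pow hψ b)

end Vale.Agent.P270.H455.GB
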